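import Mathlib

/-!
# P004X (Ramanujan-free fork): algebra of one Euler factor

`l` = normalised coefficient, `‖t‖ ≤ r`, `|l| r ≤ 1/100`, `r ≤ 1/100`, `m ≥ r, |l| r`.
-/

open Real

namespace P004X.Alg

/-- second order expansion of the Euler factor -/
lemma inv_expand {l : ℝ} {t : ℂ} {r m : ℝ} (ht : ‖t‖ ≤ r) (hr : r ≤ 1 / 100)
    (hl : |l| * r ≤ 1 / 100) (hm1 : r ≤ m) (hm2 : |l| * r ≤ m) :
    ‖(1 - l * t + t ^ 2)⁻¹ - (1 + l * t + ((l : ℂ) ^ 2 - 1) * t ^ 2)‖ ≤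
      3 * ((1 + l ^ 2) * r ^ 2 * m) ∧
    ‖(1 - l * t + t ^ 2)⁻¹‖ ≤ 103 / 100 ∧ ‖1 + l * t + ((l : ℂ) ^ 2 - 1) * t ^ 2‖ ≤ 103 / 100 := by
  have hr0 : 0 ≤ r := (norm_nonneg _).trans ht
  have hm0 : 0 ≤ m := hr0.trans hm1
  set D : ℂ := 1 - l * t + t ^ 2 with hD
  have hln : ‖(l : ℂ)‖ = |l| := by simp
  have hlt : ‖(l : ℂ) * t‖ ≤ |l| * r := by
    rw [norm_mul, hln]; gcongr
  have ht2 : ‖t ^ 2‖ ≤ r ^ 2 := by rw [norm_pow]; gcongr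
  have hr2 : r ^ 2 ≤ 1 / 10000 := by nlinarith
  have hDn : 98 / 100 ≤ ‖D‖ := by
    have h1 : ‖(1 : ℂ)‖ ≤ ‖D‖ + ‖(l : ℂ) * t - t ^ 2‖ := by
      have e : (1 : ℂ) = D + ((l : ℂ) * t - t ^ 2) := by rw [hD]; ring
      calc ‖(1 : ℂ)‖ = ‖D + ((l : ℂ) * t - t ^ 2)‖ := by rw [← e]
        _ ≤ _ := norm_add_le _ _
    have h2 := norm_sub_le ((l : ℂ) * t) (t ^ 2)
    rw [norm_one] at h1
    linarith
  have hD0 : D ≠ 0 := by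
    intro h; rw [h, norm_zero] at hDn; norm_num at hDn
  have h2 : ‖D⁻¹‖ ≤ 103 / 100 := by
    rw [norm_inv]
    calc ‖D‖⁻¹ ≤ (98 / 100 : ℝ)⁻¹ := inv_anti₀ (by norm_num) hDn
      _ ≤ _ := by norm_num
  have hlr2 : l ^ 2 * r ^ 2 ≤ 1 / 10000 := by
    have : l ^ 2 * r ^ 2 = (|l| * r) ^ 2 := by rw [mul_pow, sq_abs]
    rw [this]
    have h0 : 0 ≤ |l| * r := by positivity
    nlinarith
  have hl2 : ‖(l : ℂ) ^ 2 - 1‖ ≤ 1 + l ^ 2 := by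
    have e : (l : ℂ) ^ 2 - 1 = ((l ^ 2 - 1 : ℝ) : ℂ) := by push_cast; ring
    rw [e, Complex.norm_real, Real.norm_eq_abs, abs_le]
    constructor <;> nlinarith [sq_nonneg l]
  have hl2t : ‖((l : ℂ) ^ 2 - 1) * t ^ 2‖ ≤ (1 + l ^ 2) * r ^ 2 := by
    rw [norm_mul]; gcongr
  refine ⟨?_, h2, ?_⟩
  · have heq : D⁻¹ - (1 + l * t + ((l : ℂ) ^ 2 - 1) * t ^ 2) =
        -((2 * (l : ℂ) - (l : ℂ) ^ 3) * t ^ 3 + ((l : ℂ) ^ 2 - 1) * t ^ 4) * D⁻¹ := by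
      field_simp
      rw [hD]
      ring
    rw [heq, norm_mul, norm_neg]
    have h3 : ‖(2 * (l : ℂ) - (l : ℂ) ^ 3) * t ^ 3‖ ≤ 2 * ((1 + l ^ 2) * r ^ 2 * m) := by
      have e : (2 * (l : ℂ) - (l : ℂ) ^ 3) * t ^ 3 = 2 * ((l : ℂ) * t) * t ^ 2 -
        (l : ℂ) ^ 2 * t ^ 2 * ((l : ℂ) * t) := by ring
      rw [e]
      have h4 : ‖2 * ((l : ℂ) * t) * t ^ 2‖ ≤ (1 + l ^ 2) * r ^ 2 * m := by
        rw [norm_mul, norm_mul, Complex.norm_ofNat]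
        have a1 : 2 * |l| ≤ 1 + l ^ 2 := by
          have := sq_nonneg (|l| - 1)
          have h := sq_abs l
          nlinarith
        calc 2 * ‖(l : ℂ) * t‖ * ‖t ^ 2‖ ≤ 2 * (|l| * r) * r ^ 2 := by gcongr
          _ = (2 * |l|) * r ^ 2 * r := by ring
          _ ≤ (1 + l ^ 2) * r ^ 2 * m := by gcongr
      have h5 : ‖(l : ℂ) ^ 2 * t ^ 2 * ((l : ℂ) * t)‖ ≤ (1 + l ^ 2) * r ^ 2 * m := by
        rw [norm_mul, norm_mul, norm_pow, hln, sq_abs]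
        calc l ^ 2 * ‖t ^ 2‖ * ‖(l : ℂ) * t‖ ≤ l ^ 2 * r ^ 2 * m := by
              gcongr
              exact hlt.trans hm2
          _ ≤ (1 + l ^ 2) * r ^ 2 * m := by gcongr; linarith
      refine (norm_sub_le _ _).trans ?_
      linarith
    have h4 : ‖((l : ℂ) ^ 2 - 1) * t ^ 4‖ ≤ ((1 + l ^ 2) * r ^ 2 * m) * (1 / 100) := by
      have e : ((l : ℂ) ^ 2 - 1) * t ^ 4 = (((l : ℂ) ^ 2 - 1) * t ^ 2) * t ^ 2 := by ring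
      rw [e, norm_mul]
      calc ‖((l : ℂ) ^ 2 - 1) * t ^ 2‖ * ‖t ^ 2‖ ≤ ((1 + l ^ 2) * r ^ 2) * (r * r) := by
            rw [← sq r]; gcongr
        _ ≤ ((1 + l ^ 2) * r ^ 2) * (m * (1 / 100)) := by gcongr
        _ = _ := by ring
    have h5 : 0 ≤ (1 + l ^ 2) * r ^ 2 * m := by positivity
    calc ‖(2 * (l : ℂ) - (l : ℂ) ^ 3) * t ^ 3 + ((l : ℂ) ^ 2 - 1) * t ^ 4‖ * ‖D⁻¹‖
        ≤ (2 * ((1 + l ^ 2) * r ^ 2 * m) + ((1 + l ^ 2) * r ^ 2 * m) * (1 / 100)) *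
          (103 / 100) := by
          gcongr
          exact (norm_add_le _ _).trans (add_le_add h3 h4)
      _ ≤ 3 * ((1 + l ^ 2) * r ^ 2 * m) := by linarith
  · calc ‖1 + l * t + ((l : ℂ) ^ 2 - 1) * t ^ 2‖ ≤ ‖1 + l * t‖ + ‖((l : ℂ) ^ 2 - 1) * t ^ 2‖ :=
          norm_add_le _ _
      _ ≤ (‖(1 : ℂ)‖ + ‖l * t‖) + ‖((l : ℂ) ^ 2 - 1) * t ^ 2‖ := by gcongr; exact norm_add_le _ _
      _ ≤ (1 + 1 / 100) + (1 + l ^ 2) * r ^ 2 := by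
          rw [norm_one]
          gcongr
          exact hlt.trans hl
      _ ≤ 103 / 100 := by nlinarith

/-- the second order term of the two-point factor -/
noncomputable def qt (l : ℝ) (t u : ℂ) : ℂ :=
  (l : ℂ) ^ 2 * (t * u) + ((l : ℂ) ^ 2 - 1) * (t ^ 2 + u ^ 2)

lemma norm_sq_sub_le (l : ℝ) : ‖(l : ℂ) ^ 2 - 1‖ ≤ 1 + l ^ 2 := by
  have e : (l : ℂ) ^ 2 - 1 = ((l ^ 2 - 1 : ℝ) : ℂ) := by push_cast; ring
  rw [e, Complex.norm_real, Real.norm_eq_abs, abs_le]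
  constructor <;> nlinarith [sq_nonneg l]

lemma norm_qt_le {l : ℝ} {t u : ℂ} {r : ℝ} (ht : ‖t‖ ≤ r) (hu : ‖u‖ ≤ r) :
    ‖qt l t u‖ ≤ 3 * ((1 + l ^ 2) * r ^ 2) := by
  have hr0 : 0 ≤ r := (norm_nonneg _).trans ht
  have hl1 : ‖(l : ℂ) ^ 2‖ ≤ 1 + l ^ 2 := by
    rw [norm_pow, Complex.norm_real, Real.norm_eq_abs, sq_abs]
    linarith
  have hl2 := norm_sq_sub_le l
  unfold qt
  calc _ ≤ ‖(l : ℂ) ^ 2 * (t * u)‖ + ‖((l : ℂ) ^ 2 - 1) * (t ^ 2 + u ^ 2)‖ := norm_add_le _ _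
    _ ≤ ‖(l : ℂ) ^ 2‖ * (‖t‖ * ‖u‖) + ‖(l : ℂ) ^ 2 - 1‖ * (‖t‖ ^ 2 + ‖u‖ ^ 2) := by
        rw [norm_mul, norm_mul, norm_mul, ← norm_pow, ← norm_pow]
        gcongr
        exact norm_add_le _ _
    _ ≤ (1 + l ^ 2) * (r * r) + (1 + l ^ 2) * (r ^ 2 + r ^ 2) := by gcongr
    _ = 3 * ((1 + l ^ 2) * r ^ 2) := by ring

/-- the two-point factor, algebra -/
lemma two_point_alg {l : ℝ} {t u : ℂ} {r m : ℝ} (ht : ‖t‖ ≤ r) (hu : ‖u‖ ≤ r)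
    (hr : r ≤ 1 / 100) (hl : |l| * r ≤ 1 / 100) (hm1 : r ≤ m) (hm2 : |l| * r ≤ m) :
    ‖(r : ℂ) ^ 2 * 1 + (1 - (r : ℂ) ^ 2) / 2 *
      ((1 - l * t + t ^ 2)⁻¹ * (1 - l * u + u ^ 2)⁻¹ +
        (1 - l * (-t) + (-t) ^ 2)⁻¹ * (1 - l * (-u) + (-u) ^ 2)⁻¹) - (1 + qt l t u)‖ ≤
      10 * ((1 + l ^ 2) * r ^ 2 * m) := by
  have hr0 : 0 ≤ r := (norm_nonneg _).trans ht
  have hm0 : 0 ≤ m := hr0.trans hm1
  obtain ⟨a1, a2, a3⟩ := inv_expand ht hr hl hm1 hm2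
  obtain ⟨b1, b2, b3⟩ := inv_expand hu hr hl hm1 hm2
  obtain ⟨c1, c2, c3⟩ := inv_expand (l := l) (t := -t) (by rwa [norm_neg]) hr hl hm1 hm2
  obtain ⟨d1, d2, d3⟩ := inv_expand (l := l) (t := -u) (by rwa [norm_neg]) hr hl hm1 hm2
  set E : ℝ := (1 + l ^ 2) * r ^ 2 * m with hE
  have hE0 : 0 ≤ E := by positivity
  set A := (1 - l * t + t ^ 2)⁻¹
  set B := (1 - l * u + u ^ 2)⁻¹
  set C := (1 - l * (-t) + (-t) ^ 2)⁻¹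
  set D := (1 - l * (-u) + (-u) ^ 2)⁻¹
  set A' := 1 + l * t + ((l : ℂ) ^ 2 - 1) * t ^ 2 with hA'
  set B' := 1 + l * u + ((l : ℂ) ^ 2 - 1) * u ^ 2 with hB'
  set C' := 1 + l * (-t) + ((l : ℂ) ^ 2 - 1) * (-t) ^ 2 with hC'
  set D' := 1 + l * (-u) + ((l : ℂ) ^ 2 - 1) * (-u) ^ 2 with hD'
  have e1 : ‖A * B - A' * B'‖ ≤ 7 * E := by
    have : A * B - A' * B' = (A - A') * B + A' * (B - B') := by ring
    rw [this]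
    calc _ ≤ ‖(A - A') * B‖ + ‖A' * (B - B')‖ := norm_add_le _ _
      _ = ‖A - A'‖ * ‖B‖ + ‖A'‖ * ‖B - B'‖ := by rw [norm_mul, norm_mul]
      _ ≤ (3 * E) * (103 / 100) + (103 / 100) * (3 * E) := by gcongr
      _ ≤ _ := by linarith
  have e2 : ‖C * D - C' * D'‖ ≤ 7 * E := by
    have : C * D - C' * D' = (C - C') * D + C' * (D - D') := by ring
    rw [this]
    calc _ ≤ ‖(C - C') * D‖ + ‖C' * (D - D')‖ := norm_add_le _ _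
      _ = ‖C - C'‖ * ‖D‖ + ‖C'‖ * ‖D - D'‖ := by rw [norm_mul, norm_mul]
      _ ≤ (3 * E) * (103 / 100) + (103 / 100) * (3 * E) := by gcongr
      _ ≤ _ := by linarith
  have hl2 := norm_sq_sub_le l
  have hq := norm_qt_le (l := l) ht hu
  have hlr2 : (1 + l ^ 2) * r ^ 2 ≤ 2 / 100 * m := by
    have : l ^ 2 * r ^ 2 = (|l| * r) * (|l| * r) := by
      rw [← sq, mul_pow, sq_abs]
    have h1 : l ^ 2 * r ^ 2 ≤ 1 / 100 * m := by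
      rw [this]
      have : 0 ≤ |l| * r := by positivity
      gcongr
    have h2 : r ^ 2 ≤ 1 / 100 * m := by
      rw [sq]
      gcongr
    linarith
  have e3 : ‖((l : ℂ) ^ 2 - 1) ^ 2 * (t ^ 2 * u ^ 2)‖ ≤ 2 / 100 * E := by
    rw [norm_mul, norm_mul, norm_pow, norm_pow, norm_pow]
    calc ‖(l : ℂ) ^ 2 - 1‖ ^ 2 * (‖t‖ ^ 2 * ‖u‖ ^ 2)
        ≤ (1 + l ^ 2) ^ 2 * (r ^ 2 * r ^ 2) := by gcongr
      _ = ((1 + l ^ 2) * r ^ 2) * ((1 + l ^ 2) * r ^ 2) := by ring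
      _ ≤ ((1 + l ^ 2) * r ^ 2) * (2 / 100 * m) := by gcongr
      _ = 2 / 100 * E := by rw [hE]; ring
  have key : (r : ℂ) ^ 2 * 1 + (1 - (r : ℂ) ^ 2) / 2 * (A * B + C * D) - (1 + qt l t u) =
      (1 - (r : ℂ) ^ 2) / 2 * ((A * B - A' * B') + (C * D - C' * D')) +
      (1 - (r : ℂ) ^ 2) * (((l : ℂ) ^ 2 - 1) ^ 2 * (t ^ 2 * u ^ 2)) - (r : ℂ) ^ 2 * qt l t u := by
    rw [hA', hB', hC', hD']
    unfold qt
    ring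
  rw [key]
  have hr2 : ‖(1 - (r : ℂ) ^ 2)‖ ≤ 1 := by
    have e : (1 - (r : ℂ) ^ 2) = ((1 - r ^ 2 : ℝ) : ℂ) := by push_cast; ring
    rw [e, Complex.norm_real, Real.norm_eq_abs, abs_le]
    constructor <;> nlinarith
  have hr3 : ‖(1 - (r : ℂ) ^ 2) / 2‖ ≤ 1 / 2 := by
    rw [norm_div]
    simp only [Complex.norm_ofNat]
    linarith
  have hrr : ‖(r : ℂ) ^ 2‖ = r ^ 2 := by
    rw [norm_pow, Complex.norm_real, Real.norm_eq_abs, abs_of_nonneg hr0]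
  have h4 : r ^ 2 * (3 * ((1 + l ^ 2) * r ^ 2)) ≤ 3 / 100 * E := by
    have h5 : r ^ 2 ≤ 1 / 100 * m := by
      rw [sq]
      gcongr
    calc r ^ 2 * (3 * ((1 + l ^ 2) * r ^ 2)) ≤ (1 / 100 * m) * (3 * ((1 + l ^ 2) * r ^ 2)) := by
          gcongr
      _ = 3 / 100 * E := by rw [hE]; ring
  calc _ ≤ ‖(1 - (r : ℂ) ^ 2) / 2 * ((A * B - A' * B') + (C * D - C' * D'))‖ +
        ‖(1 - (r : ℂ) ^ 2) * (((l : ℂ) ^ 2 - 1) ^ 2 * (t ^ 2 * u ^ 2))‖ +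
        ‖(r : ℂ) ^ 2 * qt l t u‖ := (norm_sub_le _ _).trans (by gcongr; exact norm_add_le _ _)
    _ ≤ 1 / 2 * (7 * E + 7 * E) + 1 * (2 / 100 * E) + r ^ 2 * (3 * ((1 + l ^ 2) * r ^ 2)) := by
        rw [norm_mul ((r : ℂ) ^ 2) (qt l t u), norm_mul (1 - (r : ℂ) ^ 2),
          norm_mul ((1 - (r : ℂ) ^ 2) / 2), hrr]
        have := norm_add_le (A * B - A' * B') (C * D - C' * D')
        gcongr
        linarith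
    _ ≤ _ := by linarith

/-- one-point factor: the average of the two signs -/
lemma one_point_alg {l : ℝ} {t : ℂ} {r m : ℝ} (ht : ‖t‖ ≤ r)
    (hr : r ≤ 1 / 100) (hl : |l| * r ≤ 1 / 100) (hm1 : r ≤ m) (hm2 : |l| * r ≤ m) :
    ‖(r : ℂ) ^ 2 * 1 + (1 - (r : ℂ) ^ 2) / 2 *
      ((1 - l * t + t ^ 2)⁻¹ + (1 + l * t + t ^ 2)⁻¹) - (1 + ((l : ℂ) ^ 2 - 1) * t ^ 2)‖ ≤
      4 * ((1 + l ^ 2) * r ^ 2 * m) := by
  have hr0 : 0 ≤ r := (norm_nonneg _).trans ht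
  have hm0 : 0 ≤ m := hr0.trans hm1
  obtain ⟨a1, a2, a3⟩ := inv_expand ht hr hl hm1 hm2
  obtain ⟨c1, c2, c3⟩ := inv_expand (l := l) (t := -t) (by rwa [norm_neg]) hr hl hm1 hm2
  set E : ℝ := (1 + l ^ 2) * r ^ 2 * m with hE
  have hE0 : 0 ≤ E := by positivity
  have e0 : (1 + l * t + t ^ 2 : ℂ) = 1 - l * (-t) + (-t) ^ 2 := by ring
  rw [e0]
  set A := (1 - l * t + t ^ 2)⁻¹
  set C := (1 - l * (-t) + (-t) ^ 2)⁻¹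
  set A' := 1 + l * t + ((l : ℂ) ^ 2 - 1) * t ^ 2 with hA'
  set C' := 1 + l * (-t) + ((l : ℂ) ^ 2 - 1) * (-t) ^ 2 with hC'
  have key : (r : ℂ) ^ 2 * 1 + (1 - (r : ℂ) ^ 2) / 2 * (A + C) - (1 + ((l : ℂ) ^ 2 - 1) * t ^ 2) =
      (1 - (r : ℂ) ^ 2) / 2 * ((A - A') + (C - C')) - (r : ℂ) ^ 2 * (((l : ℂ) ^ 2 - 1) * t ^ 2) := by
    rw [hA', hC']
    ring
  rw [key]
  have hr2 : ‖(1 - (r : ℂ) ^ 2)‖ ≤ 1 := by
    have e : (1 - (r : ℂ) ^ 2) = ((1 - r ^ 2 : ℝ) : ℂ) := by push_cast; ring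
    rw [e, Complex.norm_real, Real.norm_eq_abs, abs_le]
    constructor <;> nlinarith
  have hr3 : ‖(1 - (r : ℂ) ^ 2) / 2‖ ≤ 1 / 2 := by
    rw [norm_div]
    simp only [Complex.norm_ofNat]
    linarith
  have hrr : ‖(r : ℂ) ^ 2‖ = r ^ 2 := by
    rw [norm_pow, Complex.norm_real, Real.norm_eq_abs, abs_of_nonneg hr0]
  have hl2t : ‖((l : ℂ) ^ 2 - 1) * t ^ 2‖ ≤ (1 + l ^ 2) * r ^ 2 := by
    rw [norm_mul, norm_pow]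
    have := norm_sq_sub_le l
    gcongr
  have h4 : r ^ 2 * ((1 + l ^ 2) * r ^ 2) ≤ 1 / 100 * E := by
    have h5 : r ^ 2 ≤ 1 / 100 * m := by
      rw [sq]
      gcongr
    calc r ^ 2 * ((1 + l ^ 2) * r ^ 2) ≤ (1 / 100 * m) * ((1 + l ^ 2) * r ^ 2) := by
          gcongr
      _ = 1 / 100 * E := by rw [hE]; ring
  calc _ ≤ ‖(1 - (r : ℂ) ^ 2) / 2 * ((A - A') + (C - C'))‖ +
        ‖(r : ℂ) ^ 2 * (((l : ℂ) ^ 2 - 1) * t ^ 2)‖ := norm_sub_le _ _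
    _ ≤ 1 / 2 * (3 * E + 3 * E) + r ^ 2 * ((1 + l ^ 2) * r ^ 2) := by
        rw [norm_mul ((1 - (r : ℂ) ^ 2) / 2), norm_mul ((r : ℂ) ^ 2), hrr]
        have := norm_add_le (A - A') (C - C')
        gcongr
        linarith
    _ ≤ _ := by linarith

end P004X.Alg
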