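import Vale.Agent.P004X.AwD

/-!
# P004X: the saving `δ`, and the summable error `er p = wq p * p ^ (-δ)`
(a thin layer over `AwD`: `er = w3`, `dl = dd`)
-/

open Real Set

namespace P004G

variable [Crv]

namespace AW

/-- the saving: `0 < dl ≤ 1/2` -/
noncomputable abbrev dl : ℝ := dd

theorem dl_pos : 0 < dl := dd_pos

theorem dl_le : dl ≤ 1 / 2 := dd_le

theorem ca_rpow {p : ℕ} (hp : p.Prime) (hb : ¬ p ∣ bd) :
    |(ca p : ℝ)| ≤ (p : ℝ) ^ (1 - dl) / 100 := ca_dd hp hb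

/-- `p ^ (-δ)` -/
noncomputable def pd (p : ℕ) : ℝ := (p : ℝ) ^ (-dl)

theorem pd_nonneg (p : ℕ) : 0 ≤ pd p := Real.rpow_nonneg (Nat.cast_nonneg p) _

theorem pd_pos {p : ℕ} (hp : p.Prime) : 0 < pd p :=
  Real.rpow_pos_of_pos (by exact_mod_cast hp.pos) _

theorem pd_le_one {p : ℕ} (hp : p.Prime) : pd p ≤ 1 :=
  Real.rpow_le_one_of_one_le_of_nonpos (by exact_mod_cast hp.one_le) (by linarith [dl_pos])

/-- `p ^ (-1/2) ≤ p ^ (-δ)` -/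
theorem rp_le_pd {p : ℕ} (hp : p.Prime) : (p : ℝ) ^ (-(1 / 2) : ℝ) ≤ pd p :=
  Real.rpow_le_rpow_of_exponent_le (by exact_mod_cast hp.one_le) (by linarith [dl_le])

omit [Crv] in
theorem rp_eq (p : ℕ) : (p : ℝ) ^ (-(1 / 2) : ℝ) = 1 / √(p : ℝ) := by
  have hp0 : (0 : ℝ) ≤ p := Nat.cast_nonneg p
  rw [Real.rpow_neg hp0, ← Real.sqrt_eq_rpow, one_div]

/-- `|ca p| / p ≤ p ^ (-δ) / 100` -/
theorem ca_div_le {p : ℕ} (hp : p.Prime) (hb : ¬ p ∣ bd) : |(ca p : ℝ)| / p ≤ pd p / 100 := by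
  have hp0 : (0 : ℝ) < p := by exact_mod_cast hp.pos
  have h1 := ca_rpow hp hb
  rw [div_le_iff₀ hp0]
  refine h1.trans_eq ?_
  rw [show (1 : ℝ) - dl = -dl + 1 by ring, Real.rpow_add_one hp0.ne']
  unfold pd
  ring

theorem lam_rp {p : ℕ} (hp : p.Prime) (hb : ¬ p ∣ bd) :
    |lam p| * (p : ℝ) ^ (-(1 / 2) : ℝ) ≤ pd p / 100 := by
  have hp0 : (0 : ℝ) < p := by exact_mod_cast hp.pos
  have hs : 0 < √(p : ℝ) := Real.sqrt_pos.2 hp0
  have h2 : √(p : ℝ) * √(p : ℝ) = p := Real.mul_self_sqrt hp0.le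
  have h1 := ca_div_le hp hb
  rw [abs_ca p hp] at h1
  refine le_trans (le_of_eq ?_) h1
  rw [rp_eq p]
  nth_rewrite 3 [← h2]
  field_simp

theorem rp_le {p : ℕ} (hp : p.Prime) (hb : ¬ p ∣ bd) : (p : ℝ) ^ (-(1 / 2) : ℝ) ≤ 1 / 100 := by
  rw [rp_eq p]
  exact one_div_le_one_div_of_le (by norm_num) (sqrt_big hp hb)

omit [Crv] in
theorem rp_pos {p : ℕ} (hp : p.Prime) : 0 < (p : ℝ) ^ (-(1 / 2) : ℝ) :=
  Real.rpow_pos_of_pos (by exact_mod_cast hp.pos) _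

theorem lam_rp' {p : ℕ} (hp : p.Prime) (hb : ¬ p ∣ bd) :
    |lam p| * (p : ℝ) ^ (-(1 / 2) : ℝ) ≤ 1 / 100 :=
  (lam_rp hp hb).trans (by linarith [pd_le_one hp])

theorem one_add_lam_sq_le {p : ℕ} (hb : ¬ p ∣ bd) : 1 + lam p ^ 2 ≤ aw p ^ 2 := by
  unfold aw
  rw [if_neg hb]
  nlinarith [abs_nonneg (lam p), sq_abs (lam p)]

theorem lam_sq_le {p : ℕ} (hb : ¬ p ∣ bd) : lam p ^ 2 ≤ aw p ^ 2 :=
  (by linarith : lam p ^ 2 ≤ 1 + lam p ^ 2).trans (one_add_lam_sq_le hb)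

theorem abs_lam_le_aw {p : ℕ} (hb : ¬ p ∣ bd) : |lam p| ≤ aw p := by
  unfold aw
  rw [if_neg hb]
  linarith

omit [Crv] in
/-- the square of `p ^ (-1/2)` -/
theorem rp_sq (p : ℕ) : ((p : ℝ) ^ (-(1 / 2) : ℝ)) ^ 2 = 1 / p := by
  rw [rp_eq p, div_pow, Real.sq_sqrt (Nat.cast_nonneg p), one_pow]

/-- `(1 + λ²) / p ≤ wq p` -/
theorem lam_sq_rp {p : ℕ} (hp : p.Prime) (hb : ¬ p ∣ bd) :
    (1 + lam p ^ 2) * ((p : ℝ) ^ (-(1 / 2) : ℝ)) ^ 2 ≤ wq p := by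
  rw [rp_sq p, mul_one_div]
  have hp0 : (0 : ℝ) < p := by exact_mod_cast hp.pos
  exact div_le_div_of_nonneg_right (one_add_lam_sq_le hb) hp0.le

/-- `wq p ≤ p ^ (-2δ)` -/
theorem wq_le_pd {p : ℕ} (hp : p.Prime) (hb : ¬ p ∣ bd) : wq p ≤ 2 * pd p ^ 2 := by
  have hp0 : (0 : ℝ) < p := by exact_mod_cast hp.pos
  have h1 := lam_rp hp hb
  have h2 := rp_le_pd hp
  have h0 := rp_pos hp
  have e : wq p = (|lam p| * (p : ℝ) ^ (-(1 / 2) : ℝ) + (p : ℝ) ^ (-(1 / 2) : ℝ)) ^ 2 := by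
    rw [← add_one_mul, mul_pow, rp_sq p]
    unfold wq aw
    rw [if_neg hb]
    ring
  rw [e]
  have h3 := pd_nonneg p
  have h4 : |lam p| * (p : ℝ) ^ (-(1 / 2) : ℝ) + (p : ℝ) ^ (-(1 / 2) : ℝ) ≤ 101 / 100 * pd p := by
    linarith
  have h5 : 0 ≤ |lam p| * (p : ℝ) ^ (-(1 / 2) : ℝ) + (p : ℝ) ^ (-(1 / 2) : ℝ) := by positivity
  nlinarith

/-- the error at `p` -/
noncomputable abbrev er (p : ℕ) : ℝ := w3 p

theorem er_eq (p : ℕ) : er p = pd p * wq p := mul_comm _ _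

theorem er_nonneg (p : ℕ) : 0 ≤ er p := w3_nonneg p

theorem er_le {p : ℕ} (hp : p.Prime) : er p ≤ wq p := w3_le_wq hp

/-- the constant for the sums of `er` -/
noncomputable def ke : ℝ := 100 * kk / dl

theorem ke_pos : 0 < ke := by
  unfold ke
  have := kk_pos
  have := dl_pos
  positivity

theorem er_tail {S : Finset ℕ} (hS : ∀ p ∈ S, p.Prime) {y : ℝ} (hy : 2 ≤ y)
    (h1 : ∀ p ∈ S, y ≤ p) : ∑ p ∈ S, er p ≤ ke * y ^ (-dl) := by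
  have h := P004X.sum_rpow_tail dw hS hy dl_pos (dl_le.trans (by norm_num)) h1
  have e : ∑ p ∈ S, er p = ∑ p ∈ S, (p : ℝ) ^ (-dl) * wq p :=
    Finset.sum_congr rfl fun p _ => er_eq p
  rw [e]
  refine h.trans ?_
  have hk := kk_pos
  have hd := dl_pos
  have hy0 : 0 < y ^ (-dl) := Real.rpow_pos_of_pos (by linarith) _
  have hl : 0.69 < Real.log y := by
    have := Real.log_le_log (by norm_num) hy
    linarith [Real.log_two_gt_d9]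
  unfold ke
  calc kk * (64 * y ^ (-dl) / (dl * Real.log y))
      ≤ kk * (64 * y ^ (-dl) / (dl * 0.64)) := by gcongr; linarith
    _ = 100 * kk / dl * y ^ (-dl) := by
        field_simp
        norm_num

theorem er_sum {S : Finset ℕ} (hS : ∀ p ∈ S, p.Prime) : ∑ p ∈ S, er p ≤ ke := by
  have h := er_tail hS (le_refl (2 : ℝ)) (fun p hp => by exact_mod_cast (hS p hp).two_le)
  refine h.trans ?_
  have : (2 : ℝ) ^ (-dl) ≤ 1 :=
    Real.rpow_le_one_of_one_le_of_nonpos (by norm_num) (by linarith [dl_pos])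
  have h1 := ke_pos
  nlinarith

end AW

end P004G
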